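import Crest.Agent.X212.Prf6.Main
import Crest.Agent.X212.Mcg32.Top

/-!
# Row 212, PERF / LANT (helper24), part 1: classes of lifted shears and rotations
-/

set_option autoImplicit false
set_option linter.unusedSectionVars false
noncomputable section
open Set Filter Topology Function Complex Metric
open scoped ContDiff Manifold

namespace Crest.Agent.X212.Lan24
open Prf6

variable {M N : Type*} [TopologicalSpace M] [ChartedSpace ℂ M] [IsManifold IC ∞ M] [T2Space M]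
  [TopologicalSpace N] [ChartedSpace ℂ N] [IsManifold IC ∞ N] [T2Space N] [Nonempty M]
  {o : Or M} {o' : Or N} {j : M → N} {Z : Set M} {P : Set N} {A B D : ℂ → N} {τ : Ab o}

/-- diffeomorphisms of `N` that are the identity near `P` -/
def GP (o' : Or N) (P : Set N) (f : Equiv.Perm N) : Prop := f ∈ G o' ∧ Near f P

theorem GP.mul {f g : Equiv.Perm N} (a : GP o' P f) (b : GP o' P g) : GP o' P (f * g) :=
  ⟨mul_mem a.1 b.1, a.2.mul b.2⟩

theorem GP.inv {f : Equiv.Perm N} (a : GP o' P f) : GP o' P f⁻¹ := ⟨inv_mem a.1, a.2.inv⟩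

/-- the class of the lift -/
def cl (o : Or M) (j : M → N) (Z : Set M) (f : Equiv.Perm N) : Ab o := cls o (lf j Z f)

theorem cl_mul (h : Col0 o o' j Z P) {f g : Equiv.Perm N} (a : GP o' P f) (b : GP o' P g) :
    cl o j Z (f * g) = cl o j Z f * cl o j Z g := by
  rw [cl, h.lf_mul (fun _ => a.2.fix) fun _ => b.2.fix, cls_mul (h.lf_mem a.1 a.2) (h.lf_mem b.1 b.2)]
  rfl

theorem cl_inv (h : Col0 o o' j Z P) {f : Equiv.Perm N} (a : GP o' P f) :
    cl o j Z f⁻¹ = (cl o j Z f)⁻¹ := by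
  rw [cl, h.lf_inv fun _ => a.2.fix, cls_inv (h.lf_mem a.1 a.2)]
  rfl

theorem cl_one (h : Col0 o o' j Z P) : cl o j Z 1 = 1 := by rw [cl, h.lf_one, cls_one]

theorem cl_path (h : Col0 o o' j Z P) {φ : ℝ → Equiv.Perm N}
    (hs : ContMDiff (IR.prod IC) IC ∞ fun p : ℝ × N => φ p.1 p.2) (hm : ∀ t, φ t ∈ G o')
    (hn : NearI φ P) (s t : ℝ) : cl o j Z (φ s) = cl o j Z (φ t) :=
  cls_path (φ := fun t => lf j Z (φ t)) (h.lf_sm hs hn) (fun t => h.lf_mem (hm t) (hn.near t)) s t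

theorem tr_shift (hB : An o' B) (l : ℝ → ℝ) (c : ℝ) :
    tr (fun z => B (z + c * I)) (sh fun r => l (r + c)) = tr B (sh l) := by
  refine ((hB.shift _).wd_sh _).ext (fun z => ?_) fun x hx => (hB.wd_sh _).out fun ⟨z, e⟩ =>
    hx ⟨z - c * I, by simpa using e⟩
  rw [(hB.wd_sh _).apply]
  congr 1
  simp
  ring

theorem disj_bx {a b : ℝ} (hP : ∀ z : ℂ, z.im ∈ Icc a b → B z ∉ P) :
    Disjoint (B '' bx a b) P := disjoint_left.2 (by
  rintro _ ⟨z, hz, rfl⟩
  exact hP z hz.2)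

theorem int_out {l : ℝ → ℝ} {a b : ℝ} {m n : ℤ} (h1 : ∀ r < a, l r = m) (h2 : ∀ r > b, l r = n) :
    ∀ r ∉ Icc a b, ∃ k : ℤ, l r = k := fun r hr => by
  rw [mem_Icc, not_and_or, not_le, not_le] at hr
  exact hr.elim (fun h => ⟨m, h1 r h⟩) fun h => ⟨n, h2 r h⟩

/-- a shear whose step lies in a band free of `P` -/
theorem step (h : Col0 o o' j Z P) (hT : ∀ C, An o C → NS C → cls o (tw C) = τ) (hB : An o' B)
    {a b c : ℝ} (hac : a < c) (hcb : c < b) (hP : ∀ z : ℂ, z.im ∈ Icc a b → B z ∉ P)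
    (hN : IsPreconnected (jv j Z '' core fun z => B (z + c * I))ᶜ) {l : ℝ → ℝ}
    (hl : ContDiff ℝ ∞ l) {m n : ℤ} (h1 : ∀ r < a, l r = m) (h2 : ∀ r > b, l r = n) :
    GP o' P (tr B (sh l)) ∧ cl o j Z (tr B (sh l)) = τ ^ (n - m) := by
  obtain ⟨δ, hδ, B', b1, b2, -, b3⟩ := (hB.shift (c * I)).thin h.cl'.isOpen_compl (by
    rintro _ ⟨t, rfl⟩
    exact hP _ (by simpa using ⟨hac.le, hcb.le⟩))
  set e := min δ (min (c - a) (b - c)) with he
  have e0 : 0 < e := lt_min hδ (lt_min (sub_pos.2 hac) (sub_pos.2 hcb))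
  have e1 : e ≤ δ := min_le_left _ _
  have e2 : e ≤ c - a := (min_le_right _ _).trans (min_le_left _ _)
  have e3 : e ≤ b - c := (min_le_right _ _).trans (min_le_right _ _)
  let u : ℝ → ℝ := fun r => m + (n - m) * Real.smoothTransition ((r - c + e) / (2 * e))
  have cu : ContDiff ℝ ∞ u := contDiff_const.add (contDiff_const.mul
    (Real.smoothTransition.contDiff.comp (by fun_prop)))
  have u1 : ∀ r < c - e, u r = m := fun r hr => by
    simp [u, Real.smoothTransition.zero_of_nonpos (div_nonpos_of_nonpos_of_nonneg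
      (show r - c + e ≤ 0 by linarith) (by positivity : 0 ≤ 2 * e))]
  have u2 : ∀ r > c + e, u r = n := fun r hr => by
    simp [u, Real.smoothTransition.one_of_one_le ((one_le_div (by positivity : 0 < 2 * e)).2
      (show 2 * e ≤ r - c + e by linarith))]
  let L : ℝ → ℝ → ℝ := fun s r => l r + s * (u r - l r)
  have cL : ContDiff ℝ ∞ fun p : ℝ × ℝ => L p.1 p.2 := (hl.comp contDiff_snd).add
    (contDiff_fst.mul ((cu.sub hl).comp contDiff_snd))
  have oL : ∀ s, ∀ r ∉ Icc a b, ∃ k : ℤ, L s r = k := fun s => int_out (m := m) (n := n)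
    (fun r hr => by simp [L, h1 r hr, u1 r (by linarith)])
    fun r hr => by simp [L, h2 r hr, u2 r (by linarith)]
  have oL' : ∀ s z, B z ∉ B '' bx a b → B (sh (L s) z) = B z := fun s => hB.out fun z hz => by
    obtain ⟨k, hk⟩ := oL s _ hz
    exact ⟨k, by simp [hk]⟩
  have mem : ∀ s, tr B (sh (L s)) ∈ G o' := fun s => hB.sh_mem
    (cL.comp (f := fun r => (s, r)) (by fun_prop)) (oL s)
  have nr := tr_nearI hB.1 (fun s => hB.wd_sh (L s)) (isCompact_bx a b) oL' (disj_bx hP)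
  have k := cl_path h (tr_sm hB.1 (sh_cd cL) (fun s => hB.wd_sh (L s)) (isCompact_bx a b) oL')
    mem nr 0 1
  have L0 : L 0 = l := funext fun r => by simp [L]
  have L1 : L 1 = u := funext fun r => by simp [L]
  have g : GP o' P (tr B (sh (L 0))) := ⟨mem 0, nr.near 0⟩
  rw [L0] at g
  rw [L0, L1] at k
  have hr : ∀ z, B' z ∉ P := fun z => b2 ⟨z, rfl⟩
  have v1 : ∀ r < -e, u (r + c) = m := fun r hr => u1 _ (by linarith)
  have v2 : ∀ r > e, u (r + c) = n := fun r hr => u2 _ (by linarith)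
  refine ⟨g, ?_⟩
  rw [k, ← tr_shift hB u c, tr_sh_congr (hB.shift _) b1 (int_out v1 v2)
    fun z hz => (b3 z ((abs_le.2 hz).trans e1)).symm, cl, h.lf_tr hr (b1.wd_sh _),
    (h.an_jv b1 hr).cls_sh (l := fun r => u (r + c)) (cu.comp (f := fun r => r + c) (by fun_prop)) v1 v2, hT _ (h.an_jv b1 hr)]
  unfold NS
  rwa [core_comp, core_congr (A := fun z => B (z + c * I)) fun t => b3 t (by simpa using hδ.le)]

theorem closed_jv (h : Col0 o o' j Z P) {γ : Set N} (hγ : IsCompact γ) (hd : Disjoint γ P) :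
    IsClosed (jv j Z '' γ) :=
  (hγ.image_of_continuousOn (h.cont_jv.mono hd.subset_compl_right)).isClosed

/-- the difference of two steps -/
def bp (a b c d r : ℝ) : ℝ :=
  Real.smoothTransition ((r - a) / (b - a)) - Real.smoothTransition ((r - c) / (d - c))

theorem st_lo {a b r : ℝ} (h : a < b) (hr : r ≤ a) : Real.smoothTransition ((r - a) / (b - a)) = 0 :=
  Real.smoothTransition.zero_of_nonpos (div_nonpos_of_nonpos_of_nonneg (by linarith) (by linarith))

theorem st_hi {a b r : ℝ} (h : a < b) (hr : b ≤ r) : Real.smoothTransition ((r - a) / (b - a)) = 1 :=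
  Real.smoothTransition.one_of_one_le ((one_le_div (by linarith)).2 (by linarith))

theorem st_cd (a b : ℝ) : ContDiff ℝ ∞ fun r => Real.smoothTransition ((r - a) / (b - a)) :=
  Real.smoothTransition.contDiff.comp (by fun_prop)

theorem bp_cd (a b c d : ℝ) : ContDiff ℝ ∞ (bp a b c d) := (st_cd a b).sub (st_cd c d)

theorem bp_one {a b c d r : ℝ} (h : a < b) (h' : c < d) (h1 : b ≤ r) (h2 : r ≤ c) :
    bp a b c d r = 1 := by rw [bp, st_hi h h1, st_lo h' h2, sub_zero]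

theorem bp_zero {a b c d r : ℝ} (h : a < b) (hb : b ≤ c) (h' : c < d) (hr : r ∉ Ioo a d) :
    bp a b c d r = 0 := by
  rw [mem_Ioo, not_and_or, not_lt, not_lt] at hr
  rcases hr with k | k
  · rw [bp, st_lo h k, st_lo h' (by linarith), sub_zero]
  · rw [bp, st_hi h (by linarith), st_hi h' k, sub_self]

/-- pushing once round a non-separating annulus -/
theorem bump (h : Col o o' j Z P) (hd : Dense Zᶜ) (hT : ∀ C, An o C → NS C → cls o (tw C) = τ)
    (hB : An o' B) (hn : NS B) {a b c d : ℝ} (hab : a < b) (hcd : c < d)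
    (h1 : ∀ z : ℂ, z.im ∈ Icc a b → B z ∉ P) (h2 : ∀ z : ℂ, z.im ∈ Icc c d → B z ∉ P) :
    GP o' P (tr B (sh fun r => -1 * bp a b c d r)) ∧
      cl o j Z (tr B (sh fun r => -1 * bp a b c d r)) = 1 := by
  have key : ∀ {a b : ℝ}, a < b → (∀ z : ℂ, z.im ∈ Icc a b → B z ∉ P) →
      GP o' P (tr B (sh fun r => Real.smoothTransition ((r - a) / (b - a)))) ∧
      cl o j Z (tr B (sh fun r => Real.smoothTransition ((r - a) / (b - a)))) = τ ^ ((1 : ℤ) - 0) := by
    intro a b hab h1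
    have c := (hB.shift (((a + b) / 2 : ℝ) * I)).isCompact_core
    have dj : Disjoint (core fun z => B (z + ((a + b) / 2 : ℝ) * I)) P := disjoint_left.2 (by
      rintro _ ⟨t, rfl⟩
      refine h1 _ ?_
      simp only [add_im, ofReal_im, mul_im, ofReal_re, I_im, mul_one, I_re, mul_zero, add_zero,
        zero_add]
      constructor <;> linarith)
    exact step h.col0 hT hB (c := (a + b) / 2) (by linarith) (by linarith) h1
      (h.col0.conn_up hd dj (closed_jv h.col0 c dj)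
        (conn_diff_fin o' h.fin c.isClosed.isOpen_compl (hB.ns_shift hn _))) (st_cd a b)
      (fun r hr => by simpa using st_lo hab hr.le) fun r hr => by simpa using st_hi hab hr.le
  obtain ⟨a1, a2⟩ := key hab h1
  obtain ⟨b1, b2⟩ := key hcd h2
  have e : tr B (sh fun r => -1 * bp a b c d r) =
      (tr B (sh fun r => Real.smoothTransition ((r - a) / (b - a))))⁻¹ *
        tr B (sh fun r => Real.smoothTransition ((r - c) / (d - c))) := by
    rw [← tr_inv (hB.wd_sh _), sh_inv, ← tr_mul (hB.wd_sh _) (hB.wd_sh _), ← sh_add]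
    congr 2
    ext r
    simp only [bp]
    ring
  rw [e]
  exact ⟨a1.inv.mul b1, by rw [cl_mul h.col0 a1.inv b1, cl_inv h.col0 a1, a2, b2, inv_mul_cancel]⟩

/-- `x` and `y` are the two feet of a handle -/
def Lnk (j : M → N) (Z : Set M) (x y : N) : Prop := ∀ O ∈ 𝓝 x, ∀ O' ∈ 𝓝 y, ∀ W, IsOpen W → Z ⊆ W →
  ∃ T, IsPreconnected T ∧ T ⊆ W ∧ (∃ u ∈ T, u ∉ Z ∧ j u ∈ O) ∧ ∃ v ∈ T, v ∉ Z ∧ j v ∈ O'

theorem lnk_of_cap {ι : Type*} {C : ι → ℂ → M} {E : ι → Bool → ℂ → N} (h : CapD o o' C j E)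
    (hC : ∀ i, An o (C i)) (hd : ∀ i k, i ≠ k → Disjoint (range (C i)) (range (C k))) (i : ι) :
    Lnk j (⋃ i, core (C i)) (E i true 0) (E i false 0) := by
  intro O hO O' hO' W hW hZ
  obtain ⟨δ, hδ, ht⟩ := (hC i).tube hW ((subset_iUnion (fun i => core (C i)) i).trans hZ)
  have nz : ∀ z : ℂ, z.im ≠ 0 → C i z ∉ ⋃ i, core (C i) := fun z hz hm => by
    obtain ⟨k, hk⟩ := mem_iUnion.1 hm
    by_cases e : i = k
    · subst e
      exact hz ((hC i).mem_core.1 hk)
    · exact disjoint_left.1 (hd i k e) ⟨z, rfl⟩ (core_subset _ hk)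
  have ev : ∀ b, ∀ U ∈ 𝓝 (E i b 0), ∀ᶠ r : ℝ in 𝓝[>] 0, E i b r ∈ U := fun b U hU =>
    nhdsWithin_le_nhds (((cont_of_pm (h.st i b).1).comp continuous_ofReal).continuousAt
      (by simpa using hU))
  obtain ⟨r, ⟨r1, r2⟩, r3⟩ := (((ev _ O hO).and (ev _ O' hO')).and (Ioo_mem_nhdsGT hδ)).exists
  refine ⟨C i '' {z | -δ < z.im ∧ z.im < δ}, (strip_conn _ _).image _
    (cont_of_pm (hC i).1).continuousOn, ?_, ⟨C i (r * I), ⟨_, ?_, rfl⟩, nz _ ?_, ?_⟩,
    C i (-(r * I)), ⟨_, ?_, rfl⟩, nz _ ?_, ?_⟩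
  · rintro _ ⟨z, hz, rfl⟩
    exact ht z (abs_lt.2 hz)
  · simpa using ⟨by linarith [r3.1], r3.2⟩
  · simpa using r3.1.ne'
  · have := h.up i 0 r r3.1
    simp only [ofReal_zero, zero_add, mul_zero, neg_zero, exp_zero, mul_one] at this
    rwa [this]
  · simpa using ⟨r3.2, by linarith [r3.1]⟩
  · simpa using r3.1.ne'
  · have := h.dn i 0 r r3.1
    simp only [ofReal_zero, zero_sub, mul_zero, exp_zero, mul_one] at this
    rwa [this]

theorem conn_out (hc : IsPreconnected (univ : Set N)) (hD : St o' D) {ρ : ℝ} (hρ : 0 < ρ) :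
    IsPreconnected (D '' closedBall 0 ρ)ᶜ := by
  have := ChartedSpace.locallyConnectedSpace ℂ N
  have c := ((isCompact_closedBall (0 : ℂ) ρ).image (cont_of_pm hD.1)).isClosed.isOpen_compl
  rw [compl_eq_univ_sdiff] at c ⊢
  have n : ∀ z : ℂ, ρ < ‖ea ρ z‖ ↔ z.im < 0 := fun z => by
    rw [norm_ea hρ, lt_mul_iff_one_lt_right hρ, Real.one_lt_exp_iff, neg_pos]
    exact ⟨fun h => neg_of_mul_neg_right h Real.two_pi_pos.le, mul_neg_of_pos_of_neg Real.two_pi_pos⟩
  refine Mcg32.conn_of (S := (D ∘ ea ρ) '' {z | z.im < 0}) hc c hD.isOpen_range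
    (fun _ h => image_subset_range _ _ h.2) ((convex_halfSpace_im_lt 0).isPreconnected.image _
      (cont_of_pm (hD.an_ea hρ).1).continuousOn) ?_ ?_
  · rintro _ ⟨z, hz, rfl⟩
    refine ⟨trivial, fun ⟨w, hw, e⟩ => ?_⟩
    rw [hD.2 e, mem_closedBall_zero_iff] at hw
    exact hw.not_gt ((n z).2 hz)
  · rintro _ ⟨⟨w, rfl⟩, -, hw⟩
    have h1 : ρ < ‖w‖ := lt_of_not_ge fun h => hw ⟨w, mem_closedBall_zero_iff.2 h, rfl⟩
    obtain ⟨z, rfl⟩ := ea_surj hρ (norm_pos_iff.1 (hρ.trans h1))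
    exact ⟨z, (n z).1 h1, rfl⟩

/-- a circle that separates the two feet of a handle lifts to a non-separating curve -/
theorem ns_disc (h : Col o o' j Z P) (hd : Dense Zᶜ) (hc : IsPreconnected (univ : Set N))
    (hD : St o' D) {ρ : ℝ} (hρ : 0 < ρ) (hP : ∀ z, ‖z‖ = ρ → D z ∉ P) {z₀ : ℂ} (h0 : ‖z₀‖ < ρ)
    {y : N} (hy : y ∉ range D) (hl : Lnk j Z (D z₀) y) :
    IsPreconnected (jv j Z '' core (D ∘ ea ρ))ᶜ := by
  have h' := h.col0
  have nc : ∀ x ∈ core (D ∘ ea ρ), ∃ z, ‖z‖ = ρ ∧ D z = x := by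
    rintro _ ⟨t, rfl⟩
    exact ⟨_, by simp [norm_ea hρ], rfl⟩
  have dj : Disjoint (core (D ∘ ea ρ)) P := disjoint_left.2 fun x hx => by
    obtain ⟨z, a, rfl⟩ := nc x hx
    exact hP z a
  have hW := (closed_jv h' (hD.an_ea hρ).isCompact_core dj).isOpen_compl
  have oI : IsOpen (D '' ball 0 ρ) := isOpenMap_of_pm hD.1 _ isOpen_ball
  have oO := ((isCompact_closedBall (0 : ℂ) ρ).image (cont_of_pm hD.1)).isClosed.isOpen_compl
  obtain ⟨T, t1, t2, ⟨u, u1, u2, u3⟩, v, v1, v2, v3⟩ := hl _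
    (oI.mem_nhds ⟨z₀, mem_ball_zero_iff.2 h0, rfl⟩) _
    (oO.mem_nhds fun hx => hy (image_subset_range _ _ hx)) _ hW (by
      rintro x hx ⟨w, hw, rfl⟩
      exact h'.jv_not (disjoint_left.1 dj hw) hx)
  have pc : ∀ {U : Set N}, IsOpen U → IsPreconnected U → IsPreconnected (jv j Z '' (U \ P)) :=
    fun a b => (conn_diff_fin o' h.fin a b).image _ (h'.cont_jv.mono fun _ hy => hy.2)
  have sb : ∀ {U : Set N}, Disjoint U (core (D ∘ ea ρ)) →
      jv j Z '' (U \ P) ⊆ (jv j Z '' core (D ∘ ea ρ))ᶜ := by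
    rintro U hU _ ⟨w, hw, rfl⟩ ⟨w', hw', e⟩
    rw [← h'.j_jv (disjoint_left.1 dj hw'), e, h'.j_jv hw.2] at hw'
    exact disjoint_left.1 hU hw.1 hw'
  have mu : ∀ {U : Set N} {x : M}, x ∉ Z → j x ∈ U → x ∈ jv j Z '' (U \ P) := fun a b =>
    ⟨_, ⟨b, h'.j_not a⟩, h'.jv_j a⟩
  refine (IsPreconnected.union v (.inr v1) (mu v2 v3) (IsPreconnected.union u (mu u2 u3) u1
    (pc oI ((convex_ball _ _).isPreconnected.image _ (cont_of_pm hD.1).continuousOn)) t1)
    (pc oO (conn_out hc hD hρ))).subset_closure (union_subset (union_subset (sb ?_) t2) (sb ?_))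
    ((hd.open_subset_closure_inter hW).trans (closure_mono ?_))
  · refine disjoint_left.2 ?_
    rintro _ ⟨w, hw, rfl⟩ hx
    obtain ⟨z, a, e⟩ := nc _ hx
    rw [← hD.2 e, mem_ball_zero_iff, a] at hw
    exact lt_irrefl _ hw
  · refine disjoint_left.2 fun x hx hx' => ?_
    obtain ⟨z, a, rfl⟩ := nc _ hx'
    exact hx ⟨z, mem_closedBall_zero_iff.2 a.le, rfl⟩
  · rintro x ⟨h1, h2⟩
    by_cases k : j x ∈ D '' closedBall 0 ρ
    · obtain ⟨w, hw, e⟩ := k
      rcases (mem_closedBall_zero_iff.1 hw).eq_or_lt with a | a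
      · obtain ⟨z, rfl⟩ := ea_surj hρ (w := w) (norm_pos_iff.1 (a ▸ hρ))
        rw [norm_ea hρ, mul_right_eq_self₀, Real.exp_eq_one_iff] at a
        have : z.im = 0 := by simpa [hρ.ne', Real.pi_ne_zero] using a
        exact (h1 ⟨_, mem_core (A := D ∘ ea ρ) this, by rw [comp_apply, e, h'.jv_j h2]⟩).elim
      · exact .inl (.inl ⟨_, ⟨⟨w, mem_ball_zero_iff.2 a, e⟩, h'.j_not h2⟩, h'.jv_j h2⟩)
    · exact .inr ⟨_, ⟨k, h'.j_not h2⟩, h'.jv_j h2⟩

/-- a multiple rotation round one foot of a handle -/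
theorem rot_cl (h : Col o o' j Z P) (hd : Dense Zᶜ) (hc : IsPreconnected (univ : Set N))
    (hT : ∀ C, An o C → NS C → cls o (tw C) = τ) (hD : St o' D) {δ : ℝ} (hδ : 0 < δ)
    (hP : ∀ z, δ / 2 ≤ ‖z‖ → ‖z‖ ≤ δ → D z ∉ P) {z₀ : ℂ} (h0 : ‖z₀‖ ≤ δ / 2) {y : N}
    (hy : y ∉ range D) (hl : Lnk j Z (D z₀) y) (m : ℤ) :
    GP o' P (tr D (rot δ m)) ∧ cl o j Z (tr D (rot δ m)) = τ ^ m := by
  have hp := Real.two_pi_pos
  have hρ : 0 < 3 / 4 * δ := by positivity
  have f : ∀ x : ℝ, 0 < x →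
      Real.exp (-(2 * Real.pi * (-Real.log x / (2 * Real.pi)))) = x := fun x hx => by
    rw [mul_div_cancel₀ _ hp.ne', neg_neg, Real.exp_log hx]
  have mono : ∀ {r s : ℝ}, r ≤ s → Real.exp (-(2 * Real.pi * s)) ≤ Real.exp (-(2 * Real.pi * r)) :=
    fun h => Real.exp_le_exp.2 (neg_le_neg (mul_le_mul_of_nonneg_left h hp.le))
  have := step h.col0 hT (hD.an_ea hρ) (a := -Real.log (4 / 3) / (2 * Real.pi))
    (b := -Real.log (2 / 3) / (2 * Real.pi)) (c := 0)
    (div_neg_of_neg_of_pos (neg_neg_of_pos (Real.log_pos (by norm_num))) hp)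
    (div_pos (neg_pos.2 (Real.log_neg (by norm_num) (by norm_num))) hp) (fun z hz => by
      have a1 := mono hz.1
      have a2 := mono hz.2
      rw [f _ (by norm_num)] at a1 a2
      refine hP _ ?_ ?_ <;> rw [norm_ea hρ] <;> nlinarith)
    (by
      simp only [ofReal_zero, zero_mul, add_zero]
      exact ns_disc h hd hc hD hρ (fun z hz => hP z (by linarith) (by linarith)) (by linarith) hy hl)
    (rl_cd (3 / 4 * δ) δ m) (m := 0) (n := m) (fun r hr => by
      have a1 := mono hr.le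
      rw [f _ (by norm_num)] at a1
      rw [rl, Real.smoothTransition.one_of_one_le]
      · simp
      · rw [le_sub_iff_add_le, le_div_iff₀ hδ]; nlinarith) fun r hr => by
      have a1 := mono hr.le
      rw [f _ (by norm_num)] at a1
      rw [rl, Real.smoothTransition.zero_of_nonpos]
      · simp
      · rw [sub_nonpos, div_le_one hδ]; nlinarith
  rwa [← hD.tr_rot hρ, sub_zero] at this

end Crest.Agent.X212.Lan24
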